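import Mathlib
import Vale.Agent.P204.Torus.Defs

/-!
# P204 torus, test potential: the periodic distance and periodic Taylor bounds
-/

open Matrix
open scoped ContDiff

namespace Vale.Agent.P204.Torus.Test

/-- The periodic distance. -/
noncomputable def R (w : Pt) : ℝ := Real.sqrt (rho2 w)

theorem rho2_term (t : ℝ) : 0 ≤ (1 - Real.cos t) / (2 * Real.pi ^ 2) :=
  div_nonneg (by linarith [Real.cos_le_one t]) (by positivity)

theorem rho2_nonneg (w : Pt) : 0 ≤ rho2 w := Finset.sum_nonneg fun _ _ => rho2_term _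

theorem R_nonneg (w : Pt) : 0 ≤ R w := Real.sqrt_nonneg _

theorem R_sq (w : Pt) : R w ^ 2 = rho2 w := Real.sq_sqrt (rho2_nonneg w)

theorem term_le_rho2 (w : Pt) (i : Fin 4) :
    (1 - Real.cos (2 * Real.pi * w i)) / (2 * Real.pi ^ 2) ≤ rho2 w :=
  Finset.single_le_sum (f := fun i => (1 - Real.cos (2 * Real.pi * w i)) / (2 * Real.pi ^ 2))
    (fun _ _ => rho2_term _) (Finset.mem_univ i)

theorem rho2_le_four (w : Pt) : rho2 w ≤ 4 := by
  have h : ∀ i : Fin 4, (1 - Real.cos (2 * Real.pi * w i)) / (2 * Real.pi ^ 2) ≤ 1 := fun i => by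
    rw [div_le_one (by positivity)]
    have := Real.pi_gt_three
    nlinarith [Real.neg_one_le_cos (2 * Real.pi * w i)]
  exact (Finset.sum_le_sum fun i _ => h i).trans (by norm_num)

theorem R_le_two (w : Pt) : R w ≤ 2 :=
  Real.sqrt_le_iff.2 ⟨by norm_num, (rho2_le_four w).trans (by norm_num)⟩

theorem one_sub_cos_le (w : Pt) (i : Fin 4) :
    1 - Real.cos (2 * Real.pi * w i) ≤ 2 * Real.pi ^ 2 * R w ^ 2 := by
  have := term_le_rho2 w i
  rw [div_le_iff₀ (by positivity), ← R_sq] at this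
  linarith

theorem abs_sin_le (w : Pt) (i : Fin 4) : |Real.sin (2 * Real.pi * w i)| ≤ 2 * Real.pi * R w := by
  have h := one_sub_cos_le w i
  rw [← abs_of_nonneg (by have := R_nonneg w; positivity : 0 ≤ 2 * Real.pi * R w)]
  refine sq_le_sq.1 ?_
  have := Real.sin_sq_add_cos_sq (2 * Real.pi * w i)
  nlinarith [Real.cos_le_one (2 * Real.pi * w i), Real.neg_one_le_cos (2 * Real.pi * w i)]

theorem abs_sw_le (w : Pt) (i : Fin 4) : |sw w i| ≤ R w := by
  rw [sw, abs_div, abs_of_pos (by positivity : (0:ℝ) < 2 * Real.pi),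
    div_le_iff₀ (by positivity)]
  linarith [abs_sin_le w i]

theorem norm_sw_le (w : Pt) : ‖sw w‖ ≤ R w :=
  (pi_norm_le_iff_of_nonneg (R_nonneg w)).2 fun i => (Real.norm_eq_abs _).trans_le (abs_sw_le w i)

/-- The periodic distance is controlled by the sine displacement and the penalty. -/
theorem rho2_le (w : Pt) : rho2 w ≤ 2 * ∑ i, sw w i ^ 2 + 200 * rho2 w ^ 2 := by
  by_cases h : ∀ i, 0 ≤ Real.cos (2 * Real.pi * w i)
  · have : rho2 w ≤ 2 * ∑ i, sw w i ^ 2 := by
      rw [rho2, Finset.mul_sum]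
      refine Finset.sum_le_sum fun i _ => ?_
      have hs := Real.sin_sq_add_cos_sq (2 * Real.pi * w i)
      rw [sw, div_pow, mul_div, div_le_div_iff₀ (by positivity) (by positivity)]
      have := h i
      nlinarith [Real.cos_le_one (2 * Real.pi * w i), Real.pi_pos,
        mul_nonneg (mul_nonneg (h i) (sub_nonneg.2 (Real.cos_le_one (2 * Real.pi * w i))))
          (sq_nonneg Real.pi)]
    nlinarith [sq_nonneg (rho2 w)]
  · push Not at h
    obtain ⟨i, hi⟩ := h
    have h1 := term_le_rho2 w i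
    have h2 : (1 : ℝ) / 200 ≤ rho2 w := by
      refine le_trans ?_ h1
      rw [div_le_div_iff₀ (by norm_num) (by positivity)]
      nlinarith [Real.pi_lt_four, Real.pi_pos]
    have h3 : 0 ≤ ∑ i, sw w i ^ 2 := Finset.sum_nonneg fun _ _ => sq_nonneg _
    nlinarith

/-- The nearest representative. -/
noncomputable def near (w : Pt) : Pt := fun i => w i - round (w i)

theorem abs_near (w : Pt) (i : Fin 4) : |near w i| ≤ 1 / 2 := abs_sub_round (w i)

theorem abs_near_le (w : Pt) (i : Fin 4) : |near w i| ≤ 2 * R w := by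
  have e : Real.cos (2 * Real.pi * w i) = Real.cos (2 * Real.pi * near w i) := by
    rw [near, mul_sub, mul_comm (2 * Real.pi) ((round (w i) : ℤ) : ℝ), Real.cos_sub_int_mul_two_pi]
  have hb : |2 * Real.pi * near w i| ≤ Real.pi := by
    rw [abs_mul, abs_of_pos (by positivity : (0:ℝ) < 2 * Real.pi)]
    nlinarith [abs_near w i, Real.pi_pos]
  have h := Real.cos_le_one_sub_mul_cos_sq hb
  have h1 := one_sub_cos_le w i
  rw [e] at h1
  rw [← abs_of_nonneg (mul_nonneg zero_le_two (R_nonneg w))]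
  refine sq_le_sq.1 ?_
  have hp := Real.pi_gt_three
  have hp4 := Real.pi_lt_four
  have : 2 / Real.pi ^ 2 * (2 * Real.pi * near w i) ^ 2 = 8 * near w i ^ 2 := by
    field_simp; ring
  have h2 : 8 * near w i ^ 2 ≤ 2 * Real.pi ^ 2 * R w ^ 2 := by linarith
  nlinarith [mul_le_mul_of_nonneg_right (show Real.pi ^ 2 ≤ 16 by nlinarith) (sq_nonneg (R w))]

theorem sin_near (w : Pt) (i : Fin 4) :
    Real.sin (2 * Real.pi * w i) = Real.sin (2 * Real.pi * near w i) := by
  rw [near, mul_sub, mul_comm (2 * Real.pi) ((round (w i) : ℤ) : ℝ), Real.sin_sub_int_mul_two_pi]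

end Vale.Agent.P204.Torus.Test
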