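import Mathlib
import Vale.Agent.P204.Torus.Test.Base

/-!
# P204 torus, test potential: Taylor bounds for periodic functions
-/

open Matrix
open scoped ContDiff

namespace Vale.Agent.P204.Torus.Test

theorem per_int {α : Type} {f : Pt → α} (hf : Periodic4 f) (n : Fin 4 → ℤ) (x : Pt) :
    f (x + fun i => (n i : ℝ)) = f x := by
  have hp : ∀ i : Fin 4, ∀ y, f (y + (n i) • (Pi.single i (1 : ℝ) : Pt)) = f y := fun i y =>
    ((show Function.Periodic f (Pi.single i (1 : ℝ) : Pt) from hf i).zsmul (n i)) y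
  have e : (fun i => (n i : ℝ)) = ∑ i, (n i) • (Pi.single i (1 : ℝ) : Pt) := by
    ext j
    simp [Finset.sum_apply, Pi.single_apply]
  rw [e, Fin.sum_univ_four, ← add_assoc, ← add_assoc, ← add_assoc, hp, hp, hp, hp]

theorem per_bdd {E : Type} [NormedAddCommGroup E] {f : Pt → E} (hp : Periodic4 f)
    (hc : Continuous f) : ∃ M, 0 ≤ M ∧ ∀ x, ‖f x‖ ≤ M := by
  obtain ⟨M, hM⟩ := (isCompact_Icc (a := (0 : Pt)) (b := 1)).exists_bound_of_continuousOn
    hc.continuousOn
  refine ⟨M, (norm_nonneg _).trans (hM 0 ⟨le_rfl, fun _ => zero_le_one⟩), fun x => ?_⟩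
  have h := per_int hp (fun i => ⌊x i⌋) (fun i => Int.fract (x i))
  have e : (fun i => Int.fract (x i)) + (fun i => (⌊x i⌋ : ℝ)) = x := by
    ext i; exact Int.fract_add_floor (x i)
  rw [e] at h
  rw [h]
  exact hM _ ⟨fun i => Int.fract_nonneg (x i), fun i => (Int.fract_lt_one (x i)).le⟩

theorem fderiv_per {E : Type} [NormedAddCommGroup E] [NormedSpace ℝ E] {f : Pt → E}
    (hp : Periodic4 f) : Periodic4 (fderiv ℝ f) := fun i x => by
  have e : (fun y => f (y + Pi.single i 1)) = f := funext (hp i)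
  have := fderiv_comp_add_right (𝕜 := ℝ) (f := f) (x := x) (Pi.single i (1 : ℝ))
  rw [e] at this
  exact this.symm

theorem fderiv_bdd {E : Type} [NormedAddCommGroup E] [NormedSpace ℝ E] {f : Pt → E}
    (hp : Periodic4 f) (hs : ContDiff ℝ ∞ f) : ∃ M, 0 ≤ M ∧ ∀ x, ‖fderiv ℝ f x‖ ≤ M :=
  per_bdd (fderiv_per hp) (hs.continuous_fderiv (by simp))

/-- First and second order Taylor bounds at displacement `h`. -/
theorem taylor_vec {E : Type} [NormedAddCommGroup E] [NormedSpace ℝ E] {f : Pt → E}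
    (hp : Periodic4 f) (hs : ContDiff ℝ ∞ f) :
    ∃ M, 0 ≤ M ∧ (∀ x h, ‖f (x + h) - f x‖ ≤ M * ‖h‖) ∧
      ∀ x h, ‖f (x + h) - f x - fderiv ℝ f x h‖ ≤ M * ‖h‖ ^ 2 := by
  obtain ⟨M₁, hM₁0, hM₁⟩ := fderiv_bdd hp hs
  have hs' : ContDiff ℝ ∞ (fderiv ℝ f) := hs.fderiv_right (by simp)
  obtain ⟨M₂, hM₂0, hM₂⟩ := fderiv_bdd (fderiv_per hp) hs'
  refine ⟨max M₁ M₂, le_max_of_le_left hM₁0, fun x h => ?_, fun x h => ?_⟩
  · have := Convex.norm_image_sub_le_of_norm_fderiv_le
      (fun y _ => (hs.differentiable (by simp)) y) (fun y _ => hM₁ y) convex_univ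
      (Set.mem_univ x) (Set.mem_univ (x + h))
    rw [add_sub_cancel_left] at this
    exact this.trans (mul_le_mul_of_nonneg_right (le_max_left _ _) (norm_nonneg _))
  · have hb : ∀ y ∈ Metric.closedBall x ‖h‖, ‖fderiv ℝ f y - fderiv ℝ f x‖ ≤ M₂ * ‖h‖ := by
      intro y hy
      refine (Convex.norm_image_sub_le_of_norm_fderiv_le
        (fun z _ => (hs'.differentiable (by simp)) z) (fun z _ => hM₂ z) convex_univ
        (Set.mem_univ x) (Set.mem_univ y)).trans (mul_le_mul_of_nonneg_left ?_ hM₂0)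
      rwa [← dist_eq_norm]
    have := (convex_closedBall x ‖h‖).norm_image_sub_le_of_norm_fderiv_le'
      (fun y _ => (hs.differentiable (by simp)) y) hb (Metric.mem_closedBall_self (norm_nonneg h))
      (show x + h ∈ Metric.closedBall x ‖h‖ by simp [dist_eq_norm])
    rw [add_sub_cancel_left] at this
    refine this.trans ?_
    rw [mul_assoc, ← sq]
    exact mul_le_mul_of_nonneg_right (le_max_right _ _) (sq_nonneg _)

theorem sub_near (x y : Pt) :
    x = y + near (x - y) + fun i => ((round ((x - y) i) : ℤ) : ℝ) := by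
  ext i
  simp [near]
  ring

theorem norm_near_le (w : Pt) : ‖near w‖ ≤ 2 * R w :=
  (pi_norm_le_iff_of_nonneg (by linarith [R_nonneg w])).2
    fun i => (Real.norm_eq_abs _).trans_le (abs_near_le w i)

theorem near_sub_sw (w : Pt) : ‖near w - sw w‖ ≤ 80 * R w ^ 2 := by
  refine (pi_norm_le_iff_of_nonneg (by positivity)).2 fun i => ?_
  rw [Real.norm_eq_abs, Pi.sub_apply, sw, sin_near]
  set t := 2 * Real.pi * near w i with ht
  have hp : (0 : ℝ) < 2 * Real.pi := by positivity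
  have e : near w i - Real.sin t / (2 * Real.pi) = (t - Real.sin t) / (2 * Real.pi) := by
    rw [ht]; field_simp
  rw [e, abs_div, abs_of_pos hp, div_le_iff₀ hp]
  have h1 : |t - Real.sin t| ≤ 2 * t ^ 2 := by
    rcases le_or_gt |t| 1 with h | h
    · have := Real.sin_bound h
      have h3 : |t| ^ 3 ≤ t ^ 2 := by
        rw [← sq_abs t, pow_succ]
        exact mul_le_of_le_one_right (sq_nonneg _) h
      have h4 : |t| ^ 4 ≤ t ^ 2 := by
        rw [← sq_abs t, show (4 : ℕ) = 2 + 2 from rfl, pow_add]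
        exact mul_le_of_le_one_right (sq_nonneg _) (pow_le_one₀ (abs_nonneg _) h)
      have hc : |t ^ 3| = |t| ^ 3 := abs_pow t 3
      calc |t - Real.sin t| = |(Real.sin t - (t - t ^ 3 / 6)) - t ^ 3 / 6| := by
            rw [abs_sub_comm]; ring_nf
        _ ≤ |Real.sin t - (t - t ^ 3 / 6)| + |t ^ 3 / 6| := abs_sub _ _
        _ ≤ 2 * t ^ 2 := by
            rw [abs_div, hc, abs_of_pos (by norm_num : (0:ℝ) < 6)]
            nlinarith [abs_nonneg t, sq_nonneg t, pow_nonneg (abs_nonneg t) 4]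
    · have := Real.abs_sin_le_one t
      calc |t - Real.sin t| ≤ |t| + |Real.sin t| := abs_sub _ _
        _ ≤ 2 * |t| := by linarith [Real.abs_sin_le_abs (x := t)]
        _ ≤ 2 * t ^ 2 := by nlinarith [sq_abs t]
  refine h1.trans ?_
  have h2 : t ^ 2 ≤ (4 * Real.pi * R w) ^ 2 := by
    rw [← sq_abs t]
    refine pow_le_pow_left₀ (abs_nonneg _) ?_ 2
    rw [ht, abs_mul, abs_of_pos hp]
    nlinarith [abs_near_le w i]
  nlinarith [mul_nonneg (mul_nonneg Real.pi_pos.le (sub_nonneg.2 Real.pi_lt_four.le)) (sq_nonneg (R w))]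

/-- Taylor bounds along the sine displacement. -/
theorem taylor_sw {E : Type} [NormedAddCommGroup E] [NormedSpace ℝ E] {f : Pt → E}
    (hp : Periodic4 f) (hs : ContDiff ℝ ∞ f) :
    ∃ M, 0 ≤ M ∧ (∀ x, ‖f x‖ ≤ M) ∧ (∀ x, ‖fderiv ℝ f x‖ ≤ M) ∧
      (∀ x y, ‖f x - f y‖ ≤ M * R (x - y)) ∧
      (∀ x y, ‖f x - f y - fderiv ℝ f y (sw (x - y))‖ ≤ M * R (x - y) ^ 2) ∧
      (∀ w y, ‖f (y + (2 : ℝ)⁻¹ • sw w) - f y‖ ≤ M * R w) ∧
      ∀ w y, ‖f (y + (2 : ℝ)⁻¹ • sw w) - f y - (2 : ℝ)⁻¹ • fderiv ℝ f y (sw w)‖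
        ≤ M * R w ^ 2 := by
  obtain ⟨M₀, h₀, hM₀⟩ := per_bdd hp hs.continuous
  obtain ⟨M₁, h₁, hM₁⟩ := fderiv_bdd hp hs
  obtain ⟨M, hM, hA, hB⟩ := taylor_vec hp hs
  refine ⟨M₀ + 80 * M₁ + 4 * M, by positivity, fun x => (hM₀ x).trans (by nlinarith),
    fun x => (hM₁ x).trans (by nlinarith), fun x y => ?_, fun x y => ?_, fun w y => ?_,
    fun w y => ?_⟩
  · have e : f x = f (y + near (x - y)) := by
      conv_lhs => rw [sub_near x y]
      exact per_int hp _ _
    rw [e]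
    exact ((hA y _).trans (mul_le_mul_of_nonneg_left (norm_near_le _) hM)).trans
      (by nlinarith [R_nonneg (x - y)])
  · have e : f x = f (y + near (x - y)) := by
      conv_lhs => rw [sub_near x y]
      exact per_int hp _ _
    rw [e]
    have h3 : fderiv ℝ f y (sw (x - y))
        = fderiv ℝ f y (near (x - y)) - fderiv ℝ f y (near (x - y) - sw (x - y)) := by
      rw [map_sub]; abel
    rw [h3, sub_sub_eq_add_sub, add_sub_right_comm]
    refine (norm_add_le _ _).trans ?_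
    have h4 := (ContinuousLinearMap.le_opNorm (fderiv ℝ f y) (near (x - y) - sw (x - y))).trans
      (mul_le_mul (hM₁ y) (near_sub_sw (x - y)) (norm_nonneg _) h₁)
    have h5 := (hB y (near (x - y))).trans (mul_le_mul_of_nonneg_left
      (pow_le_pow_left₀ (norm_nonneg _) (norm_near_le (x - y)) 2) hM)
    nlinarith [sq_nonneg (R (x - y))]
  · refine ((hA y _).trans (mul_le_mul_of_nonneg_left ?_ hM)).trans
      (mul_le_mul_of_nonneg_right (by nlinarith) (R_nonneg w))
    rw [norm_smul, Real.norm_eq_abs]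
    exact (by nlinarith [norm_sw_le w, norm_nonneg (sw w)] : |(2 : ℝ)⁻¹| * ‖sw w‖ ≤ R w)
  · have := hB y ((2 : ℝ)⁻¹ • sw w)
    rw [map_smul] at this
    refine (this.trans (mul_le_mul_of_nonneg_left (pow_le_pow_left₀ (norm_nonneg _) ?_ 2) hM)).trans
      (mul_le_mul_of_nonneg_right (by nlinarith) (sq_nonneg _))
    rw [norm_smul, Real.norm_eq_abs, abs_of_pos (by norm_num : (0:ℝ) < 2⁻¹)]
    nlinarith [norm_sw_le w, norm_nonneg (sw w)]

end Vale.Agent.P204.Torus.Test
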